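import Crest.Agent.X212.An.Strat
import Crest.Agent.X212.Mod61.Fmt
import Crest.Agent.X212.Cmp73.MB
import Crest.Agent.X212.Abel74.Defs
import Crest.Agent.X212.Line51.An
import Crest.Agent.X212.Num57.Qf
import Crest.Agent.X212.Num57.Cof

-- ▼ part X212/Eq82/Path
section

/-!
# Row 212, AN5: invariance of the count along a path (abstract form)

`res` restricts a moduli problem to an open saturated set.  `Pth` is a path of problems, one for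
each level `l` (the number of bubbles); the perturbation terms vanish at the two ends.
-/

set_option autoImplicit false
set_option linter.unusedSectionVars false
noncomputable section
open Set Filter Topology Function

namespace Crest.Agent.X212.Eq82
open Mod61 An

variable {W : Type}

/-- restriction to the part where `U` holds -/
def res (Q : Prob W) (U : Q.X → Prop) : Prob W := { Q with In := fun x => Q.In x ∧ U x }

theorem res_ax {Q : Prob W} {Adm Adm' : (W →₀ ℝ) → Prop} (h : Q.Ax Adm) (hA : ∀ q, Adm' q → Adm q)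
    {U : Q.X → Prop} (hs : ∀ x y, Q.eqv x y → Q.In x → U x → U y)
    (ho : ∀ q x, Adm' q → Q.Sol q x → U x → ∀ᶠ y in Q.Near x, Q.Sol q y → U y) :
    (res Q U).Ax Adm' where
  isOpen := h.isOpen
  inv := h.inv
  sm0 := h.sm0
  smτ := h.smτ
  mem x hx := h.mem x hx.1
  in_eqv x y e hx := ⟨h.in_eqv x y e hx.1, hs x y e hx.1 hx.2⟩
  cont := h.cont
  act := h.act
  orb o y y' h1 h2 := h.orb o y y' h1.1 h2.1
  tr x x' hx e := h.tr x x' hx.1 e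
  slc q x ha hx := by
    obtain ⟨D, h1, h2, h3⟩ := h.slc q x (hA q ha) ⟨hx.1.1, hx.2⟩
    obtain ⟨N, hN, hsub⟩ := Q.mem_near.1 (ho q x ha ⟨hx.1.1, hx.2⟩ hx.1.2)
    refine ⟨D, h1, h2, ?_⟩
    filter_upwards [h3, hN] with v hv hvN h4 h5
    obtain ⟨y, rfl, h6⟩ := hv h4 h5
    exact ⟨y, rfl, h6, hsub ⟨y, hvN, Q.eqv.refl _⟩ ⟨h6, h4⟩⟩
  cl := fun o : Q.O => (h.cl o).mono (by
    rintro v ⟨g, y, h1, h2⟩
    exact ⟨g, y, h1.1, h2⟩)

theorem res_sol {Q : Prob W} {U : Q.X → Prop} {q : W →₀ ℝ} {x : Q.X} :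
    (res Q U).Sol q x ↔ Q.Sol q x ∧ U x :=
  ⟨fun h => ⟨⟨h.1.1, h.2⟩, h.1.2⟩, fun h => ⟨⟨h.1.1, h.2⟩, h.1.2⟩⟩

/-- a path of problems; `Q l` is the problem after `l` bubbles -/
structure Pth (W : Type) : Type 1 where
  Q : ℕ → Prob W
  tc : ∀ l o, (Q l).C o →L[ℝ] ℝ

namespace Pth
variable (P : Pth W)

/-- the parameter -/
def par {l : ℕ} (x : (P.Q l).X) : ℝ := P.tc l x.1 ((P.Q l).pt x.2)

/-- the solutions over `[0,1]` -/
def K (l : ℕ) (q : W →₀ ℝ) : Set (P.Q l).X := {x | (P.Q l).Sol q x ∧ 0 ≤ P.par x ∧ P.par x ≤ 1}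

/-- regular inside the slice `t = const` -/
def Tr {l : ℕ} (q : W →₀ ℝ) (x : (P.Q l).X) : Prop :=
  Surjective ((fderiv ℝ ((P.Q l).F x.1 q) ((P.Q l).pt x.2)).prod (P.tc l x.1))

/-- the unperturbed top solutions over the parameter `a` -/
def End (a : ℝ) : Set (P.Q 0).X := {x | (P.Q 0).Sol 0 x ∧ P.par x = a}

structure Ax (Adm : (W →₀ ℝ) → Prop) : Prop where
  ax : ∀ l, (P.Q l).Ax Adm
  n0 : (P.Q 0).n = 1
  nl : ∀ l, 0 < l → (P.Q l).n < 0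
  op : St.IsOp Adm
  tc_g : ∀ o (g : (P.Q 0).G o), ∀ v ∈ (P.Q 0).U o, P.tc 0 o (g • v) = P.tc 0 o v
  tc_e : ∀ x y : (P.Q 0).X, (P.Q 0).In x → (P.Q 0).eqv x y → P.par x = P.par y
  tc_ne : ∀ x : (P.Q 0).X, P.tc 0 x.1 ≠ 0
  van : ∀ l o w, ∀ v ∈ (P.Q l).U o, P.tc l o v = 0 ∨ P.tc l o v = 1 → (P.Q l).τ o w v = 0
  dens : ∀ l q, Adm q → ∀ x ∈ P.K l q, 0 < P.par x → P.par x < 1 → ∃ J, (P.Q l).Onto q x J
  bdd : ∃ L, ∀ l q, Adm q → (P.K l q).Nonempty → l ≤ L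
  comp : ∀ l q₀, Adm q₀ → ∀ (ι : Type) (𝒰 : Ultrafilter ι) (q : ι → W →₀ ℝ)
    (u : ι → (P.Q l).X), St.Cv (𝒰 : Filter ι) q q₀ →
    (∀ᶠ i in (𝒰 : Filter ι), Adm (q i) ∧ u i ∈ P.K l (q i)) →
    (∃ x₀ ∈ P.K l q₀, Tendsto u 𝒰 ((P.Q l).Near x₀)) ∨ ∃ l', l < l' ∧ (P.K l' q₀).Nonempty

variable {P} {Adm : (W →₀ ℝ) → Prop}

theorem Tr.reg {l : ℕ} {q : W →₀ ℝ} {x : (P.Q l).X} (h : P.Tr q x) : (P.Q l).Reg q x :=
  surj_of_surj_prod h

namespace Ax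
variable (h : P.Ax Adm)
include h

theorem F_end {l : ℕ} {o : (P.Q l).O} (q : W →₀ ℝ) {v : (P.Q l).C o} (hv : v ∈ (P.Q l).U o)
    (ht : P.tc l o v = 0 ∨ P.tc l o v = 1) : (P.Q l).F o q v = (P.Q l).F o 0 v := by
  simp only [Prob.F, Finsupp.sum, h.van l o _ v hv ht, smul_zero, Finset.sum_const_zero]

theorem sol_end {l : ℕ} (q : W →₀ ℝ) {x : (P.Q l).X} (ht : P.par x = 0 ∨ P.par x = 1) :
    (P.Q l).Sol q x ↔ (P.Q l).Sol 0 x :=
  and_congr_right fun hx => by rw [h.F_end q ((h.ax l).mem x hx) ht]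

theorem fderiv_end {l : ℕ} {o : (P.Q l).O} (q : W →₀ ℝ) {v : (P.Q l).C o}
    (hv : v ∈ (P.Q l).U o) (ht : P.tc l o v = 0 ∨ P.tc l o v = 1) {u : (P.Q l).C o}
    (hu : P.tc l o u = 0) :
    fderiv ℝ ((P.Q l).F o q) v u = fderiv ℝ ((P.Q l).F o 0) v u := by
  have hc : HasDerivAt (fun s : ℝ => v + s • u) u 0 := by
    simpa using ((hasDerivAt_id (0 : ℝ)).smul_const u).const_add v
  have e0 : v + (0 : ℝ) • u = v := by simp
  have key : ∀ q' : W →₀ ℝ, HasDerivAt (fun s : ℝ => (P.Q l).F o q' (v + s • u))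
      (fderiv ℝ ((P.Q l).F o q') v u) 0 := fun q' =>
    HasFDerivAt.comp_hasDerivAt_of_eq (0 : ℝ) ((h.ax l).strictF q' hv).hasFDerivAt hc e0.symm
  have hU : ∀ᶠ s : ℝ in 𝓝 0, v + s • u ∈ (P.Q l).U o :=
    hc.continuousAt.preimage_mem_nhds (by rw [e0]; exact ((h.ax l).isOpen o).mem_nhds hv)
  refine (key q).unique ((key 0).congr_of_eventuallyEq (hU.mono fun s hs => ?_))
  refine h.F_end q hs ?_
  rwa [map_add, map_smul, hu, smul_zero, add_zero]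

theorem tr_end (q : W →₀ ℝ) {x : (P.Q 0).X} (hx : (P.Q 0).In x)
    (ht : P.par x = 0 ∨ P.par x = 1) (hr : P.Tr 0 x) : P.Tr q x := by
  obtain ⟨w, hw⟩ : ∃ w, P.tc 0 x.1 w ≠ 0 := by
    by_contra hn
    exact h.tc_ne x (ContinuousLinearMap.ext fun u => by simpa using not_exists.1 hn u)
  rintro ⟨f, r⟩
  obtain ⟨u, hu⟩ := hr (f - (r / P.tc 0 x.1 w) • fderiv ℝ ((P.Q 0).F x.1 q) ((P.Q 0).pt x.2) w, 0)
  have h1 := congrArg Prod.fst hu
  have h2 : P.tc 0 x.1 u = 0 := congrArg Prod.snd hu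
  refine ⟨u + (r / P.tc 0 x.1 w) • w, ?_⟩
  rw [ContinuousLinearMap.prod_apply, map_add, map_add, map_smul, map_smul, h2,
    h.fderiv_end q ((h.ax 0).mem x hx) ht h2]
  simp only [ContinuousLinearMap.prod_apply] at h1
  rw [h1]
  simp [hw]

end Ax

/-- the strata -/
def st (P : Pth W) (Adm : (W →₀ ℝ) → Prop) (L : ℕ) : St W where
  S := Fin (L + 1)
  X s := (P.Q s).X
  Sol s q x := x ∈ P.K s q
  P s := P.Q s
  pr x := x
  rank s := L - s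
  Adm := Adm

namespace Ax
variable (h : P.Ax Adm)
include h

theorem st_ax {L : ℕ} (hL : ∀ l q, Adm q → (P.K l q).Nonempty → l ≤ L)
    (hr : ∀ a, a = 0 ∨ a = 1 → ∀ x ∈ P.End a, P.Tr 0 x)
    (he : ∀ l, 0 < l → ∀ x ∈ P.K l 0, P.par x ≠ 0 ∧ P.par x ≠ 1) : (P.st Adm L).Ax where
  fin := inferInstanceAs (Finite (Fin (L + 1)))
  ax := fun s : Fin (L + 1) => h.ax s
  adm := h.op
  sol _ _ _ _ hx := hx.1
  dens := by
    rintro ⟨l, hl⟩ q x ha hx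
    by_cases ht : P.par x = 0 ∨ P.par x = 1
    · have h0 := (h.sol_end q ht).1 hx.1
      rcases Nat.eq_zero_or_pos l with rfl | hl0
      · exact Or.inl (h.tr_end q hx.1.1 ht (hr _ ht x ⟨h0, rfl⟩)).reg
      · have := he l hl0 x ⟨h0, hx.2⟩
        exact (ht.elim this.1 this.2).elim
    · exact Or.inr (h.dens l q ha x hx (hx.2.1.lt_of_ne fun e => ht (Or.inl e.symm))
        (hx.2.2.lt_of_ne fun e => ht (Or.inr e)))
  comp := by
    rintro ⟨l, hl⟩ q₀ ha hg ι 𝒰 q u hq hu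
    rcases h.comp l q₀ ha ι 𝒰 q u hq hu with ⟨x₀, h1, h2⟩ | ⟨l', h1, x, hx⟩
    · exact Or.inr ⟨x₀, h1, h2⟩
    · have h2 := hL l' q₀ ha ⟨x, hx⟩
      have h3 := hg ⟨l', by omega⟩ (by show L - l' < L - l; omega) x hx
      exact absurd ((h.ax l').nonneg ha hx.1 h3) (not_le.2 (h.nl l' (by omega)))

/-- **Invariance along a path.** -/
theorem lstar (h0 : Adm 0) (hr : ∀ a, a = 0 ∨ a = 1 → ∀ x ∈ P.End a, P.Tr 0 x)
    (he : ∀ l, 0 < l → ∀ x ∈ P.K l 0, P.par x ≠ 0 ∧ P.par x ≠ 1) :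
    Finite ((P.Q 0).Cl (P.End 0)) ∧ Finite ((P.Q 0).Cl (P.End 1)) ∧
      Even ((P.Q 0).cnt (P.End 0) + (P.Q 0).cnt (P.End 1)) := by
  obtain ⟨L, hL⟩ := h.bdd
  obtain ⟨q, ha, -, hg⟩ := (h.st_ax hL hr he).exists_good St.isOp_true h0 trivial
  have hemp : ∀ l, 0 < l → ¬ (P.K l q).Nonempty := by
    rintro l hl ⟨x, hx⟩
    have h2 := hL l q ha ⟨x, hx⟩
    exact absurd ((h.ax l).nonneg ha hx.1 (hg ⟨l, by omega⟩ x hx)) (not_le.2 (h.nl l hl))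
  let t : Bool → ∀ o, (P.Q 0).C o → ℝ := fun b o v => cond b (1 - P.tc 0 o v) (P.tc 0 o v)
  have hmem : ∀ x : (P.Q 0).X, (∀ b, 0 ≤ t b x.1 ((P.Q 0).pt x.2)) ↔ 0 ≤ P.par x ∧ P.par x ≤ 1 :=
    fun x => ⟨fun hx => ⟨hx false, sub_nonneg.1 (hx true)⟩, fun hx b => by
      cases b
      · exact hx.1
      · exact sub_nonneg.2 hx.2⟩
  have hS := (h.ax 0).stokes ha h.n0 t
    (fun b o => by
      cases b
      · exact (P.tc 0 o).continuous.continuousOn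
      · exact (continuous_const.sub (P.tc 0 o).continuous).continuousOn)
    (fun b o g v hv => by simp only [t, h.tc_g o g v hv])
    (fun b x y hx e => by
      have := h.tc_e x y hx e
      simp only [Pth.par] at this
      simp only [t, this])
    (fun ι 𝒰 u hu => by
      rcases h.comp 0 q ha ι 𝒰 (fun _ => q) u (St.cv_const _ q)
        (hu.mono fun i hi => ⟨ha, hi.1, (hmem _).1 hi.2⟩) with ⟨x₀, h1, h2⟩ | ⟨l', h1, h2⟩
      · exact ⟨x₀, ⟨h1.1, (hmem _).2 h1.2⟩, h2⟩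
      · exact (hemp l' h1 h2).elim)
    (fun x hx hb => ⟨hg ⟨0, by omega⟩ x ⟨hx, (hmem x).1 hb⟩, fun b h1 => by
      cases b
      · have h2 : P.par x = 0 ∨ P.par x = 1 := Or.inl h1
        exact ⟨P.tc 0 x.1, (P.tc 0 x.1).hasStrictFDerivAt,
          h.tr_end q hx.1 h2 (hr _ h2 x ⟨(h.sol_end q h2).1 hx, rfl⟩)⟩
      · have h2 : P.par x = 0 ∨ P.par x = 1 := Or.inr (sub_eq_zero.1 h1).symm
        refine ⟨-P.tc 0 x.1, (P.tc 0 x.1).hasStrictFDerivAt.const_sub 1, ?_⟩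
        rintro ⟨f, r⟩
        obtain ⟨u, hu⟩ := h.tr_end q hx.1 h2 (hr _ h2 x ⟨(h.sol_end q h2).1 hx, rfl⟩) (f, -r)
        have h4 := congrArg Prod.fst hu
        have h3 : P.tc 0 x.1 u = -r := congrArg Prod.snd hu
        refine ⟨u, Prod.ext h4 ?_⟩
        simp [h3]⟩)
    (fun x _ _ b b' h1 h2 => by
      cases b <;> cases b' <;> simp only [t, cond_true, cond_false] at h1 h2 <;>
        first | rfl | (exfalso; linarith))
  have e0 : {x : (P.Q 0).X | (P.Q 0).Sol q x ∧ (∀ j, 0 ≤ t j x.1 ((P.Q 0).pt x.2)) ∧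
      t false x.1 ((P.Q 0).pt x.2) = 0} = P.End 0 := by
    ext x
    refine ⟨fun hx => ⟨(h.sol_end q (Or.inl hx.2.2)).1 hx.1, hx.2.2⟩, fun hx =>
      ⟨(h.sol_end q (Or.inl hx.2)).2 hx.1, (hmem x).2 (by rw [hx.2]; norm_num), hx.2⟩⟩
  have e1 : {x : (P.Q 0).X | (P.Q 0).Sol q x ∧ (∀ j, 0 ≤ t j x.1 ((P.Q 0).pt x.2)) ∧
      t true x.1 ((P.Q 0).pt x.2) = 0} = P.End 1 := by
    ext x
    refine ⟨fun hx => ?_, fun hx => ⟨(h.sol_end q (Or.inr hx.2)).2 hx.1,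
      (hmem x).2 (by rw [hx.2]; norm_num), sub_eq_zero.2 hx.2.symm⟩⟩
    have h2 : P.par x = 1 := (sub_eq_zero.1 hx.2.2).symm
    exact ⟨(h.sol_end q (Or.inr h2)).1 hx.1, h2⟩
  refine ⟨e0 ▸ hS.1 false, e1 ▸ hS.1 true, ?_⟩
  have h5 := hS.2
  rw [Fintype.sum_bool, e0, e1, add_comm] at h5
  exact h5

end Ax
end Pth

end Crest.Agent.X212.Eq82
end
end

-- ▼ part X212/Eq82/Defs

/-!
# Row 212, AN5: definitions and leaves (closed connected four-manifold)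
-/

set_option autoImplicit false
set_option linter.unusedSectionVars false
noncomputable section
open scoped Manifold ContDiff Topology InnerProductSpace
open MeasureTheory Set Function Filter

namespace Crest.Agent.X212.Eq82
open An Mod61 Abel74 Crest.Agent.R208.F

variable {E : Type} [NormedAddCommGroup E] [NormedSpace ℝ E] [FiniteDimensional ℝ E]
  [MeasurableSpace E] [BorelSpace E]
  {HM : Type} [TopologicalSpace HM] {I : ModelWithCorners ℝ E HM}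
  {M : Type} [TopologicalSpace M] [ChartedSpace HM M] [IsManifold I ∞ M]
  [MeasurableSpace M] {ι : Type} [Fintype ι] {lam : Type} [Fintype lam] {r n : ℕ}

/-! ### perturbations -/

/-- terms whose curvature part vanishes for `Φ = 0` -/
def Vz : Tm M lam r n → Prop
  | .ad _ _ ξ => ∃ u v, ξ.s = .q u v
  | .adn _ _ _ _ _ => False
  | _ => True

variable (lam r n) in
/-- the generic terms -/
abbrev Wt (F₀ : Fr I M ι) : Type := {T : Tm M lam r n // T.OK F₀ ∧ Vz T}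

/-- a finite combination of generic terms -/
def wq (B : Base M ι lam) (F : Fr I M ι) {F₀ : Fr I M ι} (q : Wt lam r n F₀ →₀ ℝ) :
    Pt M ι lam r n where
  D c x := q.sum fun T a => a • c.tD B F T.1 x
  C c x := q.sum fun T a => a • c.tC B F T.1 x
  S c i := q.sum fun T a => (a : ℂ) * c.tS F T.1 i

/-- real multiples -/
def sml (a : ℝ) (τ : Pt M ι lam r n) : Pt M ι lam r n where
  D c x := a • τ.D c x
  C c x := a • τ.C c x
  S c i := (a : ℂ) * τ.S c i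

/-- the curvature part of `τ` is bounded by `e sup |Φ|²` -/
def Bd (B : Base M ι lam) (G : Geo I M ι lam) (τ : Pt M ι lam r n) (e : ℝ) : Prop :=
  ∀ c : Cfg M ι lam r, Adm0 c B G → ‖c.z‖ ≤ 1 → ∀ σ : ℝ, (∀ x, ‖c.Φ x‖ ^ 2 ≤ σ) →
    ∀ x, ‖τ.C c x‖ ≤ e * σ

/-- smooth paths of finite combinations -/
def SmP {W T : Type} [NormedAddCommGroup T] [NormedSpace ℝ T] (p : T → W →₀ ℝ) : Prop :=
  (∃ J : Finset W, ∀ t, (p t).support ⊆ J) ∧ ∀ w, ContDiff ℝ ∞ fun t => p t w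

variable (M) in
/-- data of the term `∑ wₖ fₖ (dgₖ ∧ dhₖ)⁺ ⊗ φ(|ξ|²) ξ` -/
structure Ed where
  N : ℕ
  f : Fin N → M → ℝ
  g : Fin N → M → ℝ
  h : Fin N → M → ℝ
  φ : ℝ → ℝ
  L : List (AW M)

/-- its terms -/
def Ed.tm (D : Ed M) (lam : Type) (r n : ℕ) (k : Fin D.N) : Tm M lam r n :=
  .adn (D.f k) (D.g k) (D.h k) D.φ D.L

/-- the components of its two-form -/
def Ed.fm (D : Ed M) (F : Fr I M ι) (w : Fin D.N → ℝ) (x : M) (s : ι × ι) : ℝ :=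
  ∑ k, w k * (D.f k x * F.D s.1 (D.g k) x * F.D s.2 (D.h k) x)

/-- `φ(|u ξ|²) u ξ = ξ` for `|ξ|² = 16` and `1/4 ≤ u ≤ 2` -/
def Ed.Nm (D : Ed M) : Prop := ∀ u : ℝ, 1 / 4 ≤ u → u ≤ 2 → D.φ (16 * u ^ 2) * u = 1

/-- the perturbation -/
def Ed.pt (D : Ed M) (B : Base M ι lam) (F : Fr I M ι) (w : Fin D.N → ℝ) (r n : ℕ) :
    Pt M ι lam r n := wpt B F (D.tm lam r n) w

/-! ### regularity, counting, convergence -/

/-- variation of a configuration -/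
def var (c : Cfg M ι lam r) (α : M → Fm ι c.m.A) (φ : M → c.m.V) (w : EuclideanSpace ℂ (Fin r))
    (s : ℝ) : Cfg M ι lam r :=
  ⟨c.m, c.m.addC c.W fun x => s • α x, fun x => c.Φ x + s • φ x, c.z + s • w⟩

/-- the Dirac equation along a variation -/
def vD (G : Geo I M ι lam) (τ : Pt M ι lam r n) (c : Cfg M ι lam r) (α : M → Fm ι c.m.A)
    (φ : M → c.m.V) (w : EuclideanSpace ℂ (Fin r)) (x : M) (s : ℝ) : c.m.V :=
  (var c α φ w s).eD G τ x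

/-- the curvature equation along a variation -/
def vC (B : Base M ι lam) (G : Geo I M ι lam) (τ : Pt M ι lam r n) (c : Cfg M ι lam r)
    (α : M → Fm ι c.m.A) (φ : M → c.m.V) (w : EuclideanSpace ℂ (Fin r)) (x : M) (a : ι × ι)
    (s : ℝ) : c.m.A :=
  (var c α φ w s).eC B G τ x a

/-- the kernel of the linearisation consists of infinitesimal automorphisms -/
def Rig (B : Base M ι lam) (G : Geo I M ι lam) (τ : Pt M ι lam r n) (c : Cfg M ι lam r) : Prop :=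
  ∀ (α : M → Fm ι c.m.A) (φ : M → c.m.V) (w : EuclideanSpace ℂ (Fin r)), Sm I α →
    (∀ x, c.m.p1 B x (α x) = α x) → Sm I φ → (∀ x, c.m.pp B x (φ x) = φ x) →
    (⟪c.z, w⟫_ℂ).re = 0 →
    (∀ x, HasDerivAt (vD G τ c α φ w x) 0 0) → (∀ x a, HasDerivAt (vC B G τ c α φ w x a) 0 0) →
    (∀ i, HasDerivAt (fun s => τ.S (var c α φ w s) i) 0 0) →
    ∃ (ξ : M → c.m.A) (θ : ℝ), Sm I ξ ∧ (∀ x, ξ x ∈ c.m.gS x) ∧
      (∀ x a, α x a = -Wz78.nab I G.F.e (c.m.adW c.W) a ξ x) ∧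
      (∀ x, φ x = opL (ξ x) (c.Φ x) + θ • c.m.J (c.Φ x)) ∧ w = ((2 * θ : ℝ) * Complex.I) • c.z

/-- a good datum in the box `U` -/
structure Good (B : Base M ι lam) (G : Geo I M ι lam) (τ : Pt M ι lam r n) (k : ℝ)
    (U : Cfg M ι lam r → Prop) : Prop where
  rig : ∀ c, c.Sol B G τ → c.kap B G = k → U c → Rig B G τ c
  low : ∀ c (l : ℕ), 0 < l → c.Sol B G τ → c.kap B G = k - l → ¬U c

/-- the number of isomorphism classes of solutions of level `k` in the box `U` -/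
def cntU (B : Base M ι lam) (G : Geo I M ι lam) (τ : Pt M ι lam r n) (k : ℝ)
    (U : Cfg M ι lam r → Prop) : ℕ :=
  Nat.card (Quot fun x y : {c : Cfg M ι lam r // c.Sol B G τ ∧ c.kap B G = k ∧ U c} =>
    Cfg.Iso B G.F x.1 y.1)

/-- no solution of the curvature equation with `Φ = 0` at the levels `k - l` -/
def NoI (B : Base M ι lam) (G : Geo I M ι lam) (τ : Pt M ι lam r n) (k : ℝ) : Prop :=
  ∀ (c : Cfg M ι lam r) (l : ℕ), c.Adm B G → c.kap B G = k - l → c.Φ = 0 →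
    ¬∀ x, c.eC B G τ x = 0

/-- forget `z` -/
def fz (c : Cfg M ι lam r) : Cfg M ι lam 0 := ⟨c.m, c.W, c.Φ, 0⟩

/-- add `z` -/
def wz (c : Cfg M ι lam 0) (z : EuclideanSpace ℂ (Fin r)) : Cfg M ι lam r := ⟨c.m, c.W, c.Φ, z⟩

/-- names of observables -/
abbrev Ob (F₀ : Fr I M ι) : Type := Option ({ξ : AW M // ξ.OK F₀} × {ξ : AW M // ξ.OK F₀})

/-- observables -/
def ob {F₀ : Fr I M ι} (F : Fr I M ι) (c : Cfg M ι lam r) : Ob F₀ → ℝ
  | none => ∫ x, ‖c.Φ x‖ ^ 2 ∂F.μ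
  | some o => ∫ x, ⟪c.aw F o.1.1 x, c.aw F o.2.1 x⟫_ℝ ∂F.μ

/-- smooth convergence up to isomorphism -/
def SLim (B : Base M ι lam) {α : Type} (l : Filter α) (G : α → Geo I M ι lam)
    (c : α → Cfg M ι lam r) (c₀ : Cfg M ι lam r) : Prop :=
  ∃ (W : α → c₀.m.Cn) (Φ : α → M → c₀.m.V) (z : α → EuclideanSpace ℂ (Fin r)),
    (∀ᶠ i in l, Cfg.Adm ⟨c₀.m, W i, Φ i, z i⟩ B (G i) ∧
      Cfg.Iso B (G i).F (c i) ⟨c₀.m, W i, Φ i, z i⟩) ∧
    (∀ a, Cmp73.Cv I l univ (fun i => W i a) (c₀.W a)) ∧ Cmp73.Cv I l univ Φ c₀.Φ ∧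
    Tendsto z l (𝓝 c₀.z)

variable [T2Space M] [BorelSpace M]

/-- A Banach model for the solutions of level `κ` with `Φ ≠ 0` of the family `τ t + β t • q`. -/
structure Mdl {T : Type} [NormedAddCommGroup T] [NormedSpace ℝ T] (B : Base M ι lam)
    (G : T → Geo I M ι lam) (F₀ : Fr I M ι) (τ : T → Pt M ι lam r n) (β : T → ℝ) (κ : ℝ) (d : ℤ) :
    Type 1 where
  Q : Prob (Wt lam r n F₀)
  tc : ∀ o, Q.C o →L[ℝ] T
  cf : Q.X → Cfg M ι lam r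
  ax : Q.Ax fun _ => True
  hn : Q.n = d
  adm : ∀ x, Q.In x → (cf x).Adm B (G (tc _ (Q.pt x.2)))
  tc_g : ∀ o (g : Q.G o), ∀ v ∈ Q.U o, tc o (g • v) = tc o v
  tc_sj : ∀ o, Surjective (tc o)
  van : ∀ o w, ∀ v ∈ Q.U o, β (tc o v) = 0 → Q.τ o w v = 0
  sol : ∀ q x, Q.Sol q x ↔ (cf x).Sol B (G (tc _ (Q.pt x.2)))
    ((τ (tc _ (Q.pt x.2))).add (wq B (G (tc _ (Q.pt x.2))).F (β (tc _ (Q.pt x.2)) • q))) ∧
    (cf x).kap B (G (tc _ (Q.pt x.2))) = κ ∧ (cf x).Φ ≠ 0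
  eqv : ∀ x y, Q.In x → Q.eqv x y → tc _ (Q.pt x.2) = tc _ (Q.pt y.2) ∧
    Cfg.Iso B (G (tc _ (Q.pt x.2))).F (cf x) (cf y)
  eqv' : ∀ q x y, Q.Sol q x → Q.Sol q y → tc _ (Q.pt x.2) = tc _ (Q.pt y.2) →
    Cfg.Iso B (G (tc _ (Q.pt x.2))).F (cf x) (cf y) → Q.eqv x y
  surj : ∀ (q : Wt lam r n F₀ →₀ ℝ) t (c : Cfg M ι lam r),
    c.Sol B (G t) ((τ t).add (wq B (G t).F (β t • q))) → c.kap B (G t) = κ → c.Φ ≠ 0 →
    ∃ x, Q.Sol q x ∧ tc _ (Q.pt x.2) = t ∧ cf x = c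
  near : ∀ (α : Type) (l : Filter α) (u : α → Q.X) (x₀ : Q.X) (c₀ : Cfg M ι lam r),
    (∀ᶠ i in l, Q.In (u i)) → Q.In x₀ → c₀.Adm B (G (tc _ (Q.pt x₀.2))) →
    Cfg.Iso B (G (tc _ (Q.pt x₀.2))).F c₀ (cf x₀) →
    Tendsto (fun i => tc _ (Q.pt (u i).2)) l (𝓝 (tc _ (Q.pt x₀.2))) →
    SLim B l (fun i => G (tc _ (Q.pt (u i).2))) (fun i => cf (u i)) c₀ → Tendsto u l (Q.Near x₀)
  obs : ∀ (o : Ob F₀) (x₀ : Q.X), Q.In x₀ →
    Tendsto (fun x : Q.X => ob (G (tc _ (Q.pt x.2))).F (cf x) o) (Q.Near x₀ ⊓ 𝓟 {x | Q.In x})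
      (𝓝 (ob (G (tc _ (Q.pt x₀.2))).F (cf x₀) o))
  dens : ∀ q x, Q.Sol q x → β (tc _ (Q.pt x.2)) ≠ 0 → ∃ J, Q.Onto q x J
  rig : d = Module.finrank ℝ T → ∀ q x, Q.Sol q x →
    (Surjective ((fderiv ℝ (Q.F x.1 q) (Q.pt x.2)).prod (tc x.1)) ↔
      Rig B (G (tc _ (Q.pt x.2))) ((τ (tc _ (Q.pt x.2))).add
        (wq B (G (tc _ (Q.pt x.2))).F (β (tc _ (Q.pt x.2)) • q))) (cf x))

end Crest.Agent.X212.Eq82
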